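import Vale.Agent.P167.H704.Shp.Cx
import Vale.Agent.P167.H506.SHP.Dom
import Vale.Agent.P167.H713.Q.HT

/-!
# P167, general `q`, [SHP-ASM]: the squares of the shape near the target

`dom_above`: the squares of the shape near the target are above the line of the target; `dom_blk`: the
blocks at the line; `site_box`: the sites near a point of the box.
-/

set_option autoImplicit false

namespace Vale.Agent.P167.H264.FlS

open Set Metric Filter Topology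
open Vale.Agent.P153.R2.R1 (Conf dinv)
open Vale.Agent.P153.R2.L1 (HH)
open Vale.Agent.P164 (loewnerDomain)
open Vale.Agent.P167.QT
open Vale.Agent.P167.E6 (pt)
open Vale.Agent.P167.H192 (ro)
open Vale.Agent.P167.H446.G (Cst Hst Nn Ku vd dl_pos rt emb)
open Vale.Agent.P167.H713.Q (Io del_dl)
open Vale.Agent.P167.H397.K (frm dist_frm)
open Vale.Agent.P167.H161 (zp)
open Vale.Agent.P167.FKA (Cor)
open Vale.Agent.P167.SG (Bf Sat)
open Vale.Agent.P167.H704.Shp (v1 lb Kst Obj Cx D1 F1 P1 ps1)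

section

variable {n : ℕ} {p : ZMod n → ℤ × ℤ} {k : ℕ} {L s δ : ℝ}

/-- The target in the frame `v1`. -/
theorem lb_half (p : ZMod n → ℤ × ℤ) (k : ℕ) (L s δ : ℝ) :
    lb s δ / 2 = H446.G.dl δ * (((ro (p k)).1 : ℝ) - ((v1 p k L s δ).1 : ℝ)) := by
  obtain ⟨a, ha⟩ := H446.G.Nn_dvd s δ
  have e : 4 * a / 2 = 2 * a := by omega
  unfold lb v1 vd
  rw [ha, e]
  simp only [Prod.fst_sub]
  push_cast
  ring

theorem v1_snd (p : ZMod n → ℤ × ℤ) (k : ℕ) (L s δ : ℝ) :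
    (v1 p k L s δ).2 = (ro (p k)).2 := by
  unfold v1 vd
  simp

theorem vd_snd (p : ZMod n → ℤ × ℤ) (k : ℕ) (L s δ : ℝ) :
    (vd p k L s δ).2 = (ro (p k)).2 := by
  unfold vd
  simp

theorem frm_re (hδ : 0 < δ) (v : ℤ × ℤ) (w : ℂ) :
    (frm δ v w).re = H446.G.dl δ * ((w.re - w.im) / δ - v.1) := H506.SHP.rot_re hδ w

theorem frm_im (hδ : 0 < δ) (v : ℤ × ℤ) (w : ℂ) :
    (frm δ v w).im = H446.G.dl δ * ((w.re + w.im) / δ - v.2) := H506.SHP.rot_im hδ w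

theorem frm_zp_re (hδ : 0 < δ) (v x : ℤ × ℤ) :
    (frm δ v (zp δ x)).re = H446.G.dl δ * ((x.1 : ℝ) - v.1) := by
  rw [frm_re hδ, H506.SHP.zp_sub, mul_div_cancel_left₀ _ hδ.ne']

theorem frm_zp_im (hδ : 0 < δ) (v x : ℤ × ℤ) :
    (frm δ v (zp δ x)).im = H446.G.dl δ * ((x.2 : ℝ) - v.2) := by
  rw [frm_im hδ, H506.SHP.zp_add, mul_div_cancel_left₀ _ hδ.ne']

/-- The sites near a point of the box. -/
theorem site_box (hδ : 0 < δ) {r : ℝ} {y : ℂ} {x : ℤ × ℤ}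
    (hy : frm δ (v1 p k L s δ) y ∈ Bf (lb s δ / 2) r) (hx : dist y (zp δ x) ≤ 6 * δ) :
    |(x.1 : ℝ) - (ro (p k)).1| * δ < 2 * r + 12 * δ ∧
      |(x.2 : ℝ) - (ro (p k)).2| * δ < 2 * r + 12 * δ := by
  have hdl := dl_pos hδ
  have hd := del_dl hδ
  obtain ⟨h2, h3⟩ := SG.bf_near hy (v := frm δ (v1 p k L s δ) (zp δ x)) (d := 6 * δ)
    (by rwa [dist_frm])
  rw [frm_zp_re hδ, lb_half p k L s δ, ← mul_sub, abs_mul, abs_of_pos hdl,
    sub_sub_sub_cancel_right] at h2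
  rw [frm_zp_im hδ, v1_snd, abs_mul, abs_of_pos hdl] at h3
  constructor
  · have := mul_le_mul_of_nonneg_left hd (abs_nonneg ((x.1 : ℝ) - (ro (p k)).1))
    linarith
  · have := mul_le_mul_of_nonneg_left hd (abs_nonneg ((x.2 : ℝ) - (ro (p k)).2))
    linarith

/-- The squares at a site near a point of the box are in the box. -/
theorem io_box (hδ : 0 < δ) {r : ℝ} {y : ℂ} {x x' : ℤ × ℤ} {v : ℤ × ℤ} {xb : ℝ}
    (hy : frm δ v y ∈ Bf xb r) (hx : dist y (zp δ x) ≤ 6 * δ) (hc : Cor x' x) {w : ℂ}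
    (hw : w ∈ H634.SqD δ x') : frm δ v w ∈ Bf xb (r + 8 * δ) := by
  have hdl := dl_pos hδ
  have hdl1 : H446.G.dl δ ≤ δ := by
    unfold H446.G.dl
    refine div_le_self hδ.le ?_
    rw [Real.one_le_sqrt]
    norm_num
  obtain ⟨h2, h3⟩ := SG.bf_near hy (v := frm δ v (zp δ x)) (d := 6 * δ) (by rwa [dist_frm])
  obtain ⟨⟨z1, z2⟩, z3, z4⟩ := H713.Q.frm_sq hδ (v₁ := v) hw
  rw [frm_zp_re hδ] at h2
  rw [frm_zp_im hδ] at h3
  rw [abs_lt] at h2 h3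
  obtain ⟨c1, c2⟩ := hc
  have d1 : (x'.1 : ℝ) ≤ x.1 := by rcases c1 with h | h <;> rw [h] <;> push_cast <;> linarith
  have d2 : (x.1 : ℝ) ≤ x'.1 + 1 := by rcases c1 with h | h <;> rw [h] <;> push_cast <;> linarith
  have d3 : (x'.2 : ℝ) ≤ x.2 := by rcases c2 with h | h <;> rw [h] <;> push_cast <;> linarith
  have d4 : (x.2 : ℝ) ≤ x'.2 + 1 := by rcases c2 with h | h <;> rw [h] <;> push_cast <;> linarith
  have e1 : H446.G.dl δ * ((x.1 : ℝ) - v.1) - H446.G.dl δ ≤ H446.G.dl δ * ((x'.1 : ℝ) - v.1) := by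
    nlinarith
  have e2 : H446.G.dl δ * ((x'.1 : ℝ) - v.1 + 1) ≤
      H446.G.dl δ * ((x.1 : ℝ) - v.1) + H446.G.dl δ := by nlinarith
  have e3 : H446.G.dl δ * ((x.2 : ℝ) - v.2) - H446.G.dl δ ≤ H446.G.dl δ * ((x'.2 : ℝ) - v.2) := by
    nlinarith
  have e4 : H446.G.dl δ * ((x'.2 : ℝ) - v.2 + 1) ≤
      H446.G.dl δ * ((x.2 : ℝ) - v.2) + H446.G.dl δ := by nlinarith
  refine ⟨?_, ?_⟩ <;> rw [abs_lt] <;> constructor <;> linarith

/-- The blocks at the line. -/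
theorem dom_blk {M : ℕ} (hM : 4 ∣ M) {v₀ : ℤ × ℤ} (hv₀ : Even (v₀.1 + v₀.2)) {P : Sh4}
    {v x x' : ℤ × ℤ} (hv : (v.1 + v.2) % 2 = 1) (h2 : v.2 = v₀.2) (hx : x ∈ dom M v₀ P)
    (hxv : Cor x v) (hxv' : Cor x' v) (hx2 : v₀.2 ≤ x.2) (hx2' : v₀.2 ≤ x'.2) :
    x' ∈ dom M v₀ P := by
  obtain ⟨a, rfl⟩ := hM
  obtain ⟨f, hf, ⟨g1, g2⟩, g3, g4⟩ := H506.SHP.mem_dom.1 hx
  obtain ⟨b, hb⟩ := hv₀
  obtain ⟨c1, c2⟩ := hxv
  obtain ⟨c3, c4⟩ := hxv'
  have e1 : ((4 * a : ℕ) : ℤ) * f.1 = 4 * (a * f.1) := by push_cast; ring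
  have e2 : ((4 * a : ℕ) : ℤ) * (f.1 + 1) = 4 * (a * f.1) + 4 * a := by push_cast; ring
  have h3 : x'.2 = x.2 := by omega
  rw [e1] at g1
  rw [e2] at g2
  refine H506.SHP.mem_dom.2 ⟨f, hf, ⟨?_, ?_⟩, by rw [h3]; exact g3, by rw [h3]; exact g4⟩
  · rw [e1]
    omega
  · rw [e2]
    omega

end

section

variable {C : Cst} {K : Kst} {δ : ℕ → ℝ} {N k : ℕ → ℕ} {p : ∀ n, ZMod (N n) → ℤ × ℤ}
  {S : ℕ → Finset (ℤ × ℤ)} {ψn : ℕ → ℂ → ℂ} {s : ℝ} {n : ℕ} {A : Hst} {j : ℕ} {c : Bool} {O : Obj}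

/-- The reference point of the mark is not near the target. -/
theorem mark_far (hC : Cx C K δ N k p S ψn s n A j c O) (hK : K.Ok C)
    (h : F1 C δ N k p S ψn s n A j ((-1 + O.sm : ℝ) : ℂ) ∈ Bf (lb s (δ n) / 2) K.rf) : False := by
  have H : Sat _ _ _ _ _ _ _ _ _ _ _ _ _ _ _ _ _ _ _ _ _ _ _ _ _ _ _ _ _ _ _ _ := hC.sat
  have h0 : 0 < O.sm := hK.a00.trans hC.sm1
  have h1 : O.sm < 1 / 2 := hC.sm2.trans_le hK.b02
  have hmem : ((-1 + O.sm : ℝ) : ℂ) ∈ ball (0 : ℂ) 1 := by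
    rw [mem_ball_zero_iff, Complex.norm_real, Real.norm_eq_abs, abs_lt]
    constructor <;> linarith
  have hD : F1 C δ N k p S ψn s n A j ((-1 + O.sm : ℝ) : ℂ) ∈ D1 C δ N k p S ψn s n A j := by
    have h3 : F1 C δ N k p S ψn s n A j ((-1 + O.sm : ℝ) : ℂ) ∈
        F1 C δ N k p S ψn s n A j '' ball 0 1 := ⟨_, hmem, rfl⟩
    have h4 := H.img
    exact (Set.ext_iff.1 h4 _).1 h3
  obtain ⟨z₀, hz₀, hzx⟩ := hD
  have hHH : z₀ ∈ HH := Vale.Agent.P164.im_pos_of_dom H.drv.nn hz₀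
  have hX1 : K.X1 ≤ ‖z₀‖ := H.flt.far z₀ hHH (by
    have h' := h
    rw [← hzx] at h'
    exact h')
  have hR := hK.R0
  have hX := hK.X1R
  have hre := SG.re_of_far H.drv H.flt.hX1 H.h4 H.h16 le_rfl (by linarith) hHH hX1
  have e5 : dinv (F1 C δ N k p S ψn s n A j) (ps1 C δ N k p ψn s n z₀) =
      ((-1 + O.sm : ℝ) : ℂ) := by
    rw [hzx]
    exact H.conf.dinv_apply hmem
  rw [← H.dinv_ψ hz₀] at hre
  have hre : (K.X1 / 2 - 1) / (K.X1 / 2 + 1) ≤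
    (dinv (F1 C δ N k p S ψn s n A j) (ps1 C δ N k p ψn s n z₀)).re := hre
  rw [e5] at hre
  have h2 : 0 ≤ (K.X1 / 2 - 1) / (K.X1 / 2 + 1) := by
    apply div_nonneg <;> linarith
  rw [Complex.ofReal_re] at hre
  linarith

/-- The sizes. -/
theorem sizes (hC : Cx C K δ N k p S ψn s n A j c O) (hK : K.Ok C) (hδ : 0 < δ n) :
    0 < s ∧ 0 < K.rf ∧ 16 * lb s (δ n) ≤ K.rf ∧ 1000 * δ n ≤ K.rf := by
  have h1 := hC.lb1
  have h2 := hC.s2
  have h3 := hC.δ1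
  have h4 := hK.rcf
  have h5 := hK.rc0
  have h6 := hK.rf0
  refine ⟨by linarith, h6, by linarith, by linarith⟩

/-- **The squares of the shape near the target are above the line.** -/
theorem dom_above (hC : Cx C K δ N k p S ψn s n A j c O) (hK : K.Ok C) (hδ : 0 < δ n)
    {x : ℤ × ℤ} (hx : x ∈ dom (H446.G.Nn s (δ n)) (vd (p n) (k n) C.Ld s (δ n)) O.P)
    (hb : ∀ w ∈ H634.SqD (δ n) x,
      frm (δ n) (v1 (p n) (k n) C.Ld s (δ n)) w ∈ Bf (lb s (δ n) / 2) (K.rf / 4 + 8 * δ n)) :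
    (ro (p n (k n))).2 ≤ x.2 := by
  by_contra hcon
  push Not at hcon
  have hdl := dl_pos hδ
  obtain ⟨k1, k2, k3, k4⟩ := sizes hC hK hδ
  obtain ⟨w, hw⟩ := H506.SHP.Io_nonempty hδ x
  have hz := hb w (H713.Q.Io_sub hδ x hw)
  set z : ℂ := frm (δ n) (v1 (p n) (k n) C.Ld s (δ n)) w with hzdef
  have him : z.im < 0 := by
    rw [hzdef, frm_im hδ, v1_snd]
    have h1 : (w.re + w.im) / δ n < x.2 + 1 := by
      rw [div_lt_iff₀ hδ]
      have := hw.2.2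
      linarith
    have h2 : (x.2 : ℝ) + 1 ≤ (ro (p n (k n))).2 := by exact_mod_cast hcon
    exact mul_neg_of_pos_of_neg hdl (by linarith)
  have hemb : rt * w + -((H446.G.dl (δ n) : ℂ) * pt (vd (p n) (k n) C.Ld s (δ n))) ∈
      emb (H446.G.dl (δ n) * H446.G.Nn s (δ n)) O.P := H506.SHP.p1 hδ x hx hw
  have e : rt * w + -((H446.G.dl (δ n) : ℂ) * pt (vd (p n) (k n) C.Ld s (δ n))) =
      z + H632G.tau (lb s (δ n)) (Ku C.Ld s) := by
    rw [hzdef]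
    unfold frm H632G.tau v1 lb
    apply Complex.ext
    · simp only [pt, Complex.add_re, Complex.neg_re, Complex.re_ofReal_mul, Complex.ofReal_re]
      push_cast
      ring
    · simp only [pt, Complex.add_im, Complex.neg_im, Complex.im_ofReal_mul, Complex.ofReal_im]
      ring
  have e2 : H446.G.dl (δ n) * (H446.G.Nn s (δ n) : ℝ) = lb s (δ n) / 5 := by
    unfold lb
    ring
  rw [e, e2] at hemb
  rcases hC.shd.sup' hemb with h1 | h1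
  · have H : Sat _ _ _ _ _ _ _ _ _ _ _ _ _ _ _ _ _ _ _ _ _ _ _ _ _ _ _ _ _ _ _ _ := hC.sat
    have h2 := H.pm_above (z := z) (by linarith [hz.1]) (by linarith [(abs_lt.1 hz.2).1]) h1
    linarith
  · have h2 := hC.shd.gf h1
    have h3 := hC.isMk.small hC.isMk.e_mem
    rw [mem_closedBall] at h3
    have h4 := SG.bf_near (SG.bf_near hz h2) h3
    have h5 := hK.h1c
    have h6 := hK.rrc
    have h7 := hK.rcf
    have h8 := hK.rc0
    exact mark_far hC hK (SG.bf_mono (by linarith) h4)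

end

end Vale.Agent.P167.H264.FlS
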