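import Vale.Agent.P167.H713.Q.SeamD
import Vale.Agent.P167.H918.KLit

/-!
# P167, general `q`, [SEAM-FL]: the conditions at the sites near the flat part

`At c p k S A j Bd P ζ W WP arcP s`: the conditions `com`, `cout`, `wpf`, `cbd`, `flo`, `flp`, `fw` of
713's `Seam` at one site. `at_of`: they follow from the staircase near the target, if the squares of the
shape at `s` are above the line and the boundary sites of the shape are on the pushed-in side.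
-/

set_option autoImplicit false

namespace Vale.Agent.P167.H264.FlS

open Vale.Agent.P167.E6 Vale.Agent.P167.E2 Vale.Agent.P167.H192
open Vale.Agent.P167.H918 (Loc)
open Vale.Agent.P167.H718 (Dq)
open Vale.Agent.P167.H72.SD (dk om ComS)
open Vale.Agent.P167.H161 (Rd)
open Vale.Agent.P167.FKA (Cor)
open Vale.Agent.P167.H713.Q (Arc)

variable {n : ℕ} {p : ZMod n → ℤ × ℤ} {k : ℕ} {S : Finset (ℤ × ℤ)} {A : Finset (Sym2 (ℤ × ℤ))}
  {j : ℕ} {Bd P : Finset (ℤ × ℤ)} {ζ : Cfg} {W WP arcP : Set (ℤ × ℤ)} {c : Bool} {s : ℤ × ℤ}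

/-- The conditions of the seam at one site near the flat part. -/
structure At (c : Bool) (p : ZMod n → ℤ × ℤ) (k : ℕ) (S : Finset (ℤ × ℤ))
    (A : Finset (Sym2 (ℤ × ℤ))) (j : ℕ) (Bd P : Finset (ℤ × ℤ)) (ζ : Cfg)
    (W WP arcP : Set (ℤ × ℤ)) (s : ℤ × ℤ) : Prop where
  com : (s.1 + s.2) % 2 = (if c then 0 else 1) → (∃ v ∈ Dq S p k, Cor v s) →
    (∃ v ∈ P, Cor v s) → ComS p k S A j Bd P s
  cout : c = true → (s.1 + s.2) % 2 = 0 → (∃ v ∈ Dq S p k, Cor v s) → (∃ v ∈ P, Cor v s) →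
    ∀ v, Cor v s → v ∉ P → v ∉ Dq S p k → ζ v = true → om p k A v = true
  wpf : c = false → (s.1 + s.2) % 2 = 0 → (∃ v ∈ P, Cor v s) →
    (∃ v, v ∉ Dq S p k ∧ om p k A v = true ∧ Cor v s) → s ∈ WP
  cbd : c = false → (s.1 + s.2) % 2 = 1 → (∃ v ∈ Dq S p k, Cor v s) → ∀ v, Cor v s → v ∉ Bd
  flo : (s.1 + s.2) % 2 = 1 → rf' s ∉ S → ∀ x ∈ Dq S p k, ∀ x' ∈ Dq S p k, Cor x s → Cor x' s →
    ∃ s' : ℤ × ℤ, (s'.1 + s'.2) % 2 = 0 ∧ Cor x s' ∧ Cor x' s'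
  flp : (s.1 + s.2) % 2 = 1 → rf' s ∉ S → ∀ x ∈ P, ∀ x' ∈ Dq S p k, Cor x s → Cor x' s → x' ∈ P
  fw : (s.1 + s.2) % 2 = 1 → (∃ v ∈ P, Cor v s) → (∃ v ∈ Dq S p k, Cor v s) →
    (c = true → s ∈ W → s ∈ arcP) ∧ (c = false → s ∈ arcP → s ∈ W)

/-- The squares at a site. -/
theorem cor_row {v : ℤ × ℤ} (h : Cor v s) : (s.1 = v.1 ∨ s.1 = v.1 + 1) ∧
    (s.2 = v.2 ∨ s.2 = v.2 + 1) := h

variable {M : ℕ} {R : ℤ}

theorem dq_iff (hL : Loc p S k M R) (h1 : |s.1 - (ro (p k)).1| + 3 ≤ R)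
    (h2 : |s.2 - (ro (p k)).2| + 3 ≤ R) {v : ℤ × ℤ} (hv : Cor v s) :
    v ∈ Dq S p k ↔ (ro (p k)).2 ≤ v.2 := by
  obtain ⟨a, b⟩ := cor_row hv
  obtain ⟨x, y⟩ := v
  dsimp only at a b
  refine hL.mem_Dq_iff ?_ ?_
  · have h3 := abs_le.1 (show |s.1 - (ro (p k)).1| ≤ R - 3 by linarith)
    have : |x - (ro (p k)).1| ≤ R - 1 := abs_le.2 ⟨by omega, by omega⟩
    linarith
  · have h3 := abs_le.1 (show |s.2 - (ro (p k)).2| ≤ R - 3 by linarith)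
    have : |y - (ro (p k)).2| ≤ R - 2 := abs_le.2 ⟨by omega, by omega⟩
    linarith

/-- **The conditions at one site.** -/
theorem at_of (hL : Loc p S k M R) (h1 : |s.1 - (ro (p k)).1| + 3 ≤ R)
    (h2 : |s.2 - (ro (p k)).2| + 3 ≤ R)
    (hRd : ∀ v, Cor v s → v ∉ Rd p k S A j) (hBd : ∀ v, Cor v s → v ∉ Bd)
    (hP : ∀ v ∈ P, Cor v s → (ro (p k)).2 ≤ v.2)
    (hblk : (s.1 + s.2) % 2 = 1 → s.2 = (ro (p k)).2 → ∀ v ∈ P, Cor v s → ∀ v', Cor v' s →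
      (ro (p k)).2 ≤ v'.2 → v' ∈ P)
    (hArc : (∃ v ∈ P, Cor v s) → (∃ v, v ∉ P ∧ Cor v s) → Arc c P ζ WP arcP s)
    (harcb : s ∈ arcP → ∃ v, v ∉ P ∧ Cor v s)
    (hW : s ∈ W → rf' s ∉ S) : At c p k S A j Bd P ζ W WP arcP s := by
  have hD : ∀ v, Cor v s → (v ∈ Dq S p k ↔ (ro (p k)).2 ≤ v.2) := fun v hv => dq_iff hL h1 h2 hv
  have hF : (s.1 + s.2) % 2 = 1 → rf' s ∉ S → s.2 ≤ (ro (p k)).2 := by
    intro hs h
    by_contra hcon
    push Not at hcon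
    refine h ((hL.face_iff (by rw [Int.even_iff]; omega) (by linarith) (by linarith)).2 ?_)
    split_ifs <;> omega
  have hlow : Cor (s.1, s.2 - 1) s := ⟨Or.inl rfl, Or.inr (by dsimp only; ring)⟩
  have hline : (s.1 + s.2) % 2 = 1 → rf' s ∉ S → (∃ v ∈ P, Cor v s) → s.2 = (ro (p k)).2 := by
    rintro hs h ⟨v, hv, hvs⟩
    have h3 := hP v hv hvs
    have h4 := hF hs h
    obtain ⟨-, h5⟩ := cor_row hvs
    omega
  refine ⟨fun _ _ _ => ⟨hRd, hBd, fun y hy hyP => (hD y hy).2 (hP y hyP hy)⟩, ?_, ?_,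
    fun _ _ _ => hBd, ?_, ?_, ?_⟩
  · intro hc hs _ hex v hv hvP _ hζ
    have h3 := hArc hex ⟨v, hvP, hv⟩
    rw [Arc, if_pos hc] at h3
    rw [h3.1 hs v hvP hv] at hζ
    exact absurd hζ (by decide)
  · rintro hc hs hex ⟨v, hv, -, hvs⟩
    have hvP : v ∉ P := fun h => hv ((hD v hvs).2 (hP v h hvs))
    have h3 := hArc hex ⟨v, hvP, hvs⟩
    rw [Arc, if_neg (by rw [hc]; decide)] at h3
    exact h3.1 hs
  · intro hs hr x hx x' hx' hxs hxs'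
    have h3 := (hD x hxs).1 hx
    have h4 := (hD x' hxs').1 hx'
    have h5 := hF hs hr
    obtain ⟨a1, a2⟩ := cor_row hxs
    obtain ⟨b1, b2⟩ := cor_row hxs'
    refine ⟨(s.1, s.2 + 1), by dsimp only; omega, ⟨?_, ?_⟩, ?_, ?_⟩ <;> dsimp only <;> omega
  · intro hs hr x hx x' hx' hxs hxs'
    exact hblk hs (hline hs hr ⟨x, hx, hxs⟩) x hx hxs x' hxs' ((hD x' hxs').1 hx')
  · rintro hs hex -
    refine ⟨fun hc hsW => ?_, fun hc hsa => ?_⟩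
    · have h4 := hline hs (hW hsW) hex
      have h5 : (s.1, s.2 - 1) ∉ P := fun h => by
        have := hP _ h hlow
        dsimp only at this
        omega
      have h3 := hArc hex ⟨_, h5, hlow⟩
      rw [Arc, if_pos hc] at h3
      exact h3.2 hs
    · have h3 := hArc hex (harcb hsa)
      rw [Arc, if_neg (by rw [hc]; decide)] at h3
      exact absurd hsa (h3.2 hs)

end Vale.Agent.P167.H264.FlS
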