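import Vale.Agent.P167.H506.SHP.Inp
import Vale.Agent.P167.H264.FlS.Lat
import Vale.Agent.P167.H264.FlS.Geo
import Vale.Agent.P167.H918.FarX
import Vale.Agent.P167.H918.KLitN

/-!
# P167, general `q`, [SHP-ASM]: the fields of the seam near the target

`at_all`: the conditions at the sites of the box of radius `rf / 4`, from the condition of the arcs.
`ff2`: the second part of the flat part.
-/

set_option autoImplicit false

namespace Vale.Agent.P167.H264.FlS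

open Set Metric Filter Topology
open Vale.Agent.P167.QT
open Vale.Agent.P167.E6 (IsPolygon Encloses edges pt)
open Vale.Agent.P167.H192 (ro rf')
open Vale.Agent.P167.H411 (exn Set6)
open Vale.Agent.P167.H446.G (Cst Hst Nn Ku vd Bef bad rS rR)
open Vale.Agent.P167.H713.Q (Io Dn Sd NearS Arc)
open Vale.Agent.P167.H397.K (frm dist_frm)
open Vale.Agent.P167.H161 (zp Rd)
open Vale.Agent.P167.FKA (Cor)
open Vale.Agent.P167.H72.SD (Wr LB RB)
open Vale.Agent.P167.SG (Bf Sat)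
open Vale.Agent.P167.H704.Shp (v1 lb Kst Obj Cx)
open Vale.Agent.P167.H506.SHP (AllH Bas bas Dm Zt FlatX F_fl2)
open Vale.Agent.P167.H469.Fl (Fl2)

/-- An integer from a real. -/
theorem int_bound {δ r : ℝ} (hδ : 0 < δ) {a b : ℤ} (h : |(a : ℝ) - b| * δ < r) {ρ : ℝ}
    (hr : r + δ ≤ ρ) : |a - b| + 3 ≤ ⌊ρ / δ⌋ + 2 := by
  have h1 : |a - b| + 1 ≤ ⌊ρ / δ⌋ := by
    rw [Int.le_floor, le_div_iff₀ hδ]
    push_cast
    linarith
  omega

variable {Φ : (ℝ × ℝ) ≃ₜ (ℝ × ℝ)} {ψ : ℂ → ℂ} {δ : ℕ → ℝ} {N k : ℕ → ℕ}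
  {p : ∀ n, ZMod (N n) → ℤ × ℤ} {S : ℕ → Finset (ℤ × ℤ)} {ψn : ℕ → ℂ → ℂ}

/-- **The conditions at the sites near the target**, from the condition of the arcs. -/
theorem at_all (H : Set6 Φ ψ δ N k p S ψn) (hSt : QE.Stair 3 Φ δ N k p S) :
    AllH δ N k p S ψn fun C K s n A j c O => ∀ (y : ℂ) (v : ℤ × ℤ),
      frm (δ n) (v1 (p n) (k n) C.Ld s (δ n)) y ∈ Bf (lb s (δ n) / 2) (K.rf / 4) →
      dist y (zp (δ n) v) ≤ 6 * δ n →
      ((∃ x ∈ Dm C δ N k p s n O, Cor x v) → (∃ x, x ∉ Dm C δ N k p s n O ∧ Cor x v) →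
        Arc c (Dm C δ N k p s n O) (Zt C δ N k p s n O)
          (Wr (Dm C δ N k p s n O) (Zt C δ N k p s n O))
          (arcc (H446.G.Nn s (δ n)) (vd (p n) (k n) C.Ld s (δ n)) O.P) v) →
      At c (p n) (k n) (S n) A j (bad (p n) (k n) (S n) (δ n) K.r s A j c)
        (Dm C δ N k p s n O) (Zt C δ N k p s n O) (H446.G.wf C (p n) (k n) (S n) (δ n) s)
        (Wr (Dm C δ N k p s n O) (Zt C δ N k p s n O))
        (arcc (H446.G.Nn s (δ n)) (vd (p n) (k n) C.Ld s (δ n)) O.P) v := by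
  intro T R hT hR
  obtain ⟨r', hr', hst⟩ := hSt
  obtain ⟨ρ₁, hρ₁, hloc⟩ := H918.loc_of H.appr hr' hst
  obtain ⟨ρ₂, hρ₂, hfar⟩ := H825.G.far_bef H hT hR.le
  obtain ⟨ρ₃, hρ₃, hbas⟩ := bas H T R hT hR
  refine ⟨min ρ₃ (min ρ₁ ρ₂), by positivity, fun C K eT eR hK hrf => ?_⟩
  have r1 := hrf.trans ((min_le_right _ _).trans (min_le_left _ _))
  have r2 := hrf.trans ((min_le_right _ _).trans (min_le_right _ _))
  obtain ⟨s₃, hs₃, hbas⟩ := hbas C K eT eR hK (hrf.trans (min_le_left _ _))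
  refine ⟨s₃, hs₃, fun s hs hs' => ?_⟩
  filter_upwards [hloc, hfar, hbas s hs hs', H653.St.hst_st H hT hR.le one_pos,
    H756.drv H hT hR.le zero_lt_one] with n hloc hfar hbas hsts hdrv A j hB c O hC y v hy hyv hArc
  have B := hbas A j hB c O hC
  have hδ := B.δ0
  obtain ⟨M, hL⟩ := hloc
  obtain ⟨k1, k2, k3, k4⟩ := sizes hC hK hδ
  obtain ⟨b1, b2⟩ := site_box hδ hy hyv
  have hbox : ∀ x, Cor x v → ∀ w ∈ H634.SqD (δ n) x,
      frm (δ n) (v1 (p n) (k n) C.Ld s (δ n)) w ∈ Bf (lb s (δ n) / 2) (K.rf / 4 + 8 * δ n) :=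
    fun x hx w hw => io_box hδ hy hyv hx hw
  rw [eT, eR] at hB
  refine at_of hL (int_bound hδ b1 (by linarith)) (int_bound hδ b2 (by linarith)) ?_ ?_ ?_ ?_
    hArc ?_ ?_
  · -- the squares which were read
    intro x hx hxR
    obtain ⟨hA, hj, hb⟩ := hB
    obtain ⟨-, -, h1⟩ := hfar A hA j hj hb
    have h2 := h1 x hxR
    rw [div_le_iff₀ hδ] at h2
    obtain ⟨c1, c2⟩ := hx
    have d1 : |(x.1 : ℝ) - (ro (p n (k n))).1| ≤ |(v.1 : ℝ) - (ro (p n (k n))).1| + 1 := by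
      have e : (x.1 : ℝ) - (ro (p n (k n))).1 = ((v.1 : ℝ) - (ro (p n (k n))).1) + (x.1 - v.1) := by
        ring
      rw [e]
      refine (abs_add_le _ _).trans ?_
      have : |(x.1 : ℝ) - v.1| ≤ 1 := by
        rcases c1 with h | h <;> rw [h] <;> simp
      linarith
    have d2 : |(x.2 : ℝ) - (ro (p n (k n))).2| ≤ |(v.2 : ℝ) - (ro (p n (k n))).2| + 1 := by
      have e : (x.2 : ℝ) - (ro (p n (k n))).2 = ((v.2 : ℝ) - (ro (p n (k n))).2) + (x.2 - v.2) := by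
        ring
      rw [e]
      refine (abs_add_le _ _).trans ?_
      have : |(x.2 : ℝ) - v.2| ≤ 1 := by
        rcases c2 with h | h <;> rw [h] <;> simp
      linarith
    have d3 : ((nm (x - ro (p n (k n))) : ℤ) : ℝ) =
        max |(x.1 : ℝ) - (ro (p n (k n))).1| |(x.2 : ℝ) - (ro (p n (k n))).2| := by
      unfold nm
      rw [Prod.fst_sub, Prod.snd_sub]
      push_cast
      rfl
    rw [d3] at h2
    rcases max_choice |(x.1 : ℝ) - (ro (p n (k n))).1| |(x.2 : ℝ) - (ro (p n (k n))).2| with h | h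
    · rw [h] at h2
      have := mul_le_mul_of_nonneg_right d1 hδ.le
      linarith
    · rw [h] at h2
      have := mul_le_mul_of_nonneg_right d2 hδ.le
      linarith
  · -- the frozen squares
    intro x hx
    obtain ⟨-, hD', -, -⟩ := hsts A j hB (v1 (p n) (k n) C.Ld s (δ n))
    have HS : Sat _ _ _ _ _ _ _ _ _ _ _ _ _ _ _ _ _ _ _ _ _ _ _ _ _ _ _ _ _ _ _ _ := hC.sat
    have hdl1 : H446.G.dl (δ n) ≤ δ n := by
      unfold H446.G.dl
      refine div_le_self hδ.le ?_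
      rw [Real.one_le_sqrt]
      norm_num
    obtain ⟨-, -, -, -, -, k6⟩ := H397.K.cst_all (a := 100) (s := s) (r := K.r) (by norm_num) hδ
      B.δs (by linarith [B.sr])
    exact H713.Q.not_bad HS.flt HS.drv HS.h4 HS.h16 hδ B.ρ B.ρR hD' (by linarith)
      (k6 K.rf (by linarith [B.sr, hK.rrc, hK.rcf, hK.rc0, hK.r0])) fun w hw => SG.bf_mono (by linarith) (hbox x hx w hw)
  · -- the squares of the shape are above the line
    exact fun x hx hxv => dom_above hC hK hδ hx (hbox x hxv)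
  · -- the blocks at the line
    intro hv h2 x hx hxv x' hxv' hx'
    exact dom_blk (H446.G.Nn_dvd s (δ n)) (H446.G.even_vd _ _ _ _ _) hv (by rw [h2, vd_snd]) hx hxv
      hxv' (by rw [vd_snd]; exact dom_above hC hK hδ hx (hbox x hxv)) (by rw [vd_snd]; exact hx')
  · -- the target arc
    intro hv
    exact H72.SD.arcc_bd hC.shd.polyP hC.shd.enclP (by
      have h1 := H446.G.lt_Nn (s := s) hδ
      have h2 := hC.δ1
      have h3 := H446.G.dl_pos hδ
      have hdl1 : H446.G.dl (δ n) ≤ δ n := by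
        unfold H446.G.dl
        refine div_le_self hδ.le ?_
        rw [Real.one_le_sqrt]
        norm_num
      by_contra h0
      have h4 : H446.G.Nn s (δ n) = 0 := by omega
      rw [h4, Nat.cast_zero, mul_zero] at h1
      linarith) hv
  · -- the side of the polygon
    rintro ⟨i, r, -, h1, h2⟩
    rw [← h2, H192.rf'_rf]
    exact h1

/-- The condition of the arcs near the side `Sd c` in the box of radius `rf / 4`, off the small box. -/
def F_arcl (δ : ℕ → ℝ) (N k : ℕ → ℕ) (p : ∀ n, ZMod (N n) → ℤ × ℤ) (S : ℕ → Finset (ℤ × ℤ))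
    (ψn : ℕ → ℂ → ℂ) : Prop :=
  AllH δ N k p S ψn fun C K s n A j c O =>
    ∀ y ∈ Dn (p n) (k n) (S n) A j (δ n),
      frm (δ n) (v1 (p n) (k n) C.Ld s (δ n)) y ∈ Bf (lb s (δ n) / 2) (K.rf / 4) →
      NearS (Dn (p n) (k n) (S n) A j (δ n)) (Sd (p n) (k n) (S n) A j (δ n) c) (6 * δ n) y →
      ∀ v, dist y (zp (δ n) v) ≤ 6 * δ n →
        frm (δ n) (v1 (p n) (k n) C.Ld s (δ n)) (zp (δ n) v) ∉ Bf (lb s (δ n) / 2) (K.rc / 2) →
        (∃ x ∈ Dm C δ N k p s n O, Cor x v) → (∃ x, x ∉ Dm C δ N k p s n O ∧ Cor x v) →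
        Arc c (Dm C δ N k p s n O) (Zt C δ N k p s n O)
          (Wr (Dm C δ N k p s n O) (Zt C δ N k p s n O))
          (arcc (H446.G.Nn s (δ n)) (vd (p n) (k n) C.Ld s (δ n)) O.P) v

/-- **The flat fields, second set.** -/
theorem f_fl2 (H : Set6 Φ ψ δ N k p S ψn) (hSt : QE.Stair 3 Φ δ N k p S)
    (hA : F_arcl δ N k p S ψn) : F_fl2 δ N k p S ψn := by
  refine (((at_all H hSt).and hA).and (((H918.f_far H).and (bas H)).and AllH.cx)).mono
    fun C K s n A j c O h => ?_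
  obtain ⟨⟨hAt, hArc⟩, ⟨hfar, B⟩, hC⟩ := h
  have hδ := B.δ0
  have HS : Sat _ _ _ _ _ _ _ _ _ _ _ _ _ _ _ _ _ _ _ _ _ _ _ _ _ _ _ _ _ _ _ _ := hC.sat
  have hrf := HS.flt.hrf
  have key : ∀ y ∈ Fl2 c (p n) (k n) (S n) A j (δ n) K.rc (v1 (p n) (k n) C.Ld s (δ n))
      (lb s (δ n) / 2) K.rf, ∀ v, dist y (zp (δ n) v) ≤ 6 * δ n →
      At c (p n) (k n) (S n) A j (bad (p n) (k n) (S n) (δ n) K.r s A j c)
        (Dm C δ N k p s n O) (Zt C δ N k p s n O) (H446.G.wf C (p n) (k n) (S n) (δ n) s)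
        (Wr (Dm C δ N k p s n O) (Zt C δ N k p s n O))
        (arcc (H446.G.Nn s (δ n)) (vd (p n) (k n) C.Ld s (δ n)) O.P) v := by
    rintro y ⟨hyD, hyo, hyB, hyN⟩ v hyv
    refine hAt y v hyB hyv (hArc y hyD hyB hyN v hyv fun hcon => hyo ?_)
    obtain ⟨e1, e2⟩ := H918.lb_v1 (p n) (k n) C.Ld s (δ n)
    rw [H918.oR_iff e1, e2]
    have h1 := SG.bf_near hcon (v := frm (δ n) (v1 (p n) (k n) C.Ld s (δ n)) y) (d := 6 * δ n)
      (by rwa [dist_frm, dist_comm])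
    refine SG.bf_mono ?_ h1
    have hdp := H446.G.dl_pos hδ
    have hd := H713.Q.del_dl hδ
    unfold H469.Fl.Bs
    have h6 := Int.le_ceil (K.rc / (2 * H446.G.dl (δ n)))
    push_cast
    have h7 : H446.G.dl (δ n) * (K.rc / (2 * H446.G.dl (δ n))) = K.rc / 2 := by
      field_simp
    have h8 := mul_le_mul_of_nonneg_left h6 hdp.le
    rw [mul_add]
    linarith
  exact {
    com := fun y hy v hv => (key y hy v hv).com
    cout := fun hc y hy v hv => (key y hy v hv).cout hc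
    wpf := fun hc y hy v hv => (key y hy v hv).wpf hc
    cbd := fun hc y hy v hv => (key y hy v hv).cbd hc
    far := fun y hy => hfar y (SG.bf_mono (by linarith) hy.2.2.1)
    flo := fun y hy v hv => (key y hy v hv).flo
    flp := fun y hy v hv => (key y hy v hv).flp
    fw := fun y hy v hv => (key y hy v hv).fw }

end Vale.Agent.P167.H264.FlS
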